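import Mathlib
import Vale.Agent.Lib.P047.Defs
import Vale.Agent.Lib.P047.FourAbs
import Vale.Agent.Lib.P047.Seven

namespace Vale.Agent.Results.P047.A_DegreeFourSharp

open Vale.Agent.Lib.P047

/-- `M(4) = 7/4`: every Boolean function `f : {-1,1}^n → {-1,1}` of degree at most `4` satisfies
`∑_i |fhat({i})| ≤ 7/4` (in particular `∑_i fhat({i}) ≤ 7/4 < 2 = sqrt 4`), and the value `7/4`
is attained by a function of degree exactly `4` on seven variables. -/
theorem result :
    (∀ (n : ℕ) (f : (Fin n → ℤˣ) → ℤˣ), degree f ≤ 4 →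
        ∑ i : Fin n, |fourierCoeff f {i}| ≤ 7 / 4) ∧
    (∃ f : (Fin 7 → ℤˣ) → ℤˣ, degree f = 4 ∧ levelOneSum f = 7 / 4) :=
  ⟨fun _ f hdeg => four_abs f hdeg, seven, seven_degree_eq, seven_levelOneSum⟩

end Vale.Agent.Results.P047.A_DegreeFourSharp
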