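import Mathlib
import Vale.Agent.Lib.P047.Defs
import Vale.Agent.Lib.P047.Partition
import Vale.Agent.Lib.P047.helper3.OneSided

namespace Vale.Agent.Results.P047.A_SubcubePartitionBound

open Vale.Agent.Lib.P047

/-- Square-root bounds for (fractional) subcube partitions, two-sided and one-sided.

Let `f : {-1,1}^n → {-1,1}`. Let `(J k, v k)`, `k : ι`, be subcubes of the cube (the subcube `k`
consists of the points `x` with `x i = v k i` for all `i ∈ J k`; its codimension is `(J k).card`)
with weights `w k ≥ 0`.

* Two-sided: if every point `x` is covered with total weight exactly `1` (for `w = 1` this says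
  that the subcubes partition the cube) and `f` is constant on every subcube of positive weight,
  then `(sum_i fhat({i}))^2` is at most the average, over a uniform point `x`, of the weighted
  codimension of the subcubes containing `x`; in particular it is at most `d` if all subcubes of
  positive weight have codimension at most `d`.
* One-sided: if for some `b ∈ {-1,1}` every point `x` is covered with total weight `1` when
  `f x = b` and with total weight `0` otherwise (for `w = 1` this says that the level set `f = b`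
  is a disjoint union of the subcubes; nothing is assumed about the other level set), and all
  subcubes of positive weight have codimension at most `d`, where `d ≥ 1`, then
  `(sum_i |fhat({i})|)^2 ≤ 4 d`. -/
theorem result {n : ℕ} {ι : Type} [Fintype ι] (f : (Fin n → ℤˣ) → ℤˣ)
    (J : ι → Finset (Fin n)) (v : ι → Fin n → ℤˣ) (w : ι → ℚ)
    (hw : ∀ k, 0 ≤ w k) :
    ((∀ x : Fin n → ℤˣ, ∑ k, (if ∀ i ∈ J k, x i = v k i then w k else 0) = 1) →
      (∀ k, 0 < w k → ∀ x y : Fin n → ℤˣ,
        (∀ i ∈ J k, x i = v k i) → (∀ i ∈ J k, y i = v k i) → f x = f y) →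
      (levelOneSum f) ^ 2 ≤
          (∑ x : Fin n → ℤˣ, ∑ k,
            (if ∀ i ∈ J k, x i = v k i then w k * ((J k).card : ℚ) else 0)) / 2 ^ n
        ∧ ∀ d : ℕ, (∀ k, 0 < w k → (J k).card ≤ d) → (levelOneSum f) ^ 2 ≤ (d : ℚ))
    ∧ (∀ b : ℤˣ,
        (∀ x : Fin n → ℤˣ,
          ∑ k, (if ∀ i ∈ J k, x i = v k i then w k else 0) = if f x = b then 1 else 0) →
        ∀ d : ℕ, 1 ≤ d → (∀ k, 0 < w k → (J k).card ≤ d) →
          (∑ i : Fin n, |fourierCoeff f {i}|) ^ 2 ≤ 4 * (d : ℚ)) := by
  refine ⟨?_, fun b hcover d hd1 hd =>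
    Vale.Agent.Lib.P047.helper3.one_sided_bound f b J v w hw hcover d hd1 hd⟩
  intro hcover hconst
  have main := levelOne_sq_le f J v w hw hcover hconst
  have hrew : ∀ (x : Fin n → ℤˣ) (k : ι),
      wt J v w x k * ((J k).card : ℚ)
        = (if ∀ i ∈ J k, x i = v k i then w k * ((J k).card : ℚ) else 0) := by
    intro x k
    unfold wt
    split <;> simp
  have main' : (levelOneSum f) ^ 2 ≤
      (∑ x : Fin n → ℤˣ, ∑ k,
        (if ∀ i ∈ J k, x i = v k i then w k * ((J k).card : ℚ) else 0)) / 2 ^ n := by
    rw [← Finset.sum_congr rfl (fun x _ => Finset.sum_congr rfl (fun k _ => hrew x k))]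
    exact main
  refine ⟨main', ?_⟩
  intro d hd
  refine le_trans main ?_
  have hN : (0 : ℚ) < 2 ^ n := by positivity
  rw [div_le_iff₀ hN]
  have hle : ∀ (x : Fin n → ℤˣ) (k : ι),
      wt J v w x k * ((J k).card : ℚ) ≤ wt J v w x k * (d : ℚ) := by
    intro x k
    rcases (wt_nonneg J v w hw x k).lt_or_eq with hpos | h0
    · have hwk : 0 < w k := by
        unfold wt at hpos
        split at hpos
        · exact hpos
        · exact absurd hpos (lt_irrefl 0)
      have : ((J k).card : ℚ) ≤ (d : ℚ) := by exact_mod_cast hd k hwk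
      exact mul_le_mul_of_nonneg_left this hpos.le
    · rw [← h0]
      simp
  calc ∑ x : Fin n → ℤˣ, ∑ k, wt J v w x k * ((J k).card : ℚ)
      ≤ ∑ x : Fin n → ℤˣ, ∑ k, wt J v w x k * (d : ℚ) :=
        Finset.sum_le_sum (fun x _ => Finset.sum_le_sum (fun k _ => hle x k))
    _ = ∑ x : Fin n → ℤˣ, (d : ℚ) := by
        apply Finset.sum_congr rfl
        intro x _
        have hc : ∑ k, wt J v w x k = 1 := hcover x
        rw [← Finset.sum_mul, hc, one_mul]
    _ = (d : ℚ) * 2 ^ n := by
        rw [Finset.sum_const, Finset.card_univ, nsmul_eq_mul, card_cube]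
        ring

end Vale.Agent.Results.P047.A_SubcubePartitionBound
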