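import Mathlib
import Vale.Agent.Lib.P047.Defs
import Vale.Agent.Lib.P047.FourAbs
import Vale.Agent.Lib.P047.Seven
import Vale.Agent.Lib.P047.Ten
import Vale.Agent.Lib.P047.GadgetOdd
import Vale.Agent.Lib.P047.Bridge

namespace Vale.Agent.Results.P047.B_Bounds

open Vale.Agent.Lib.P047

/-- Bounds on the level-one sum `∑_i fhat({i})` of Boolean functions of bounded degree.

* `M(4) = 7/4`: every `f` of degree at most `4` has `∑_i |fhat({i})| ≤ 7/4`, with equality for a
  function of degree `4` on seven variables.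
* Explicit functions of degree `5` on ten variables with level-one sum `17/8`, and of degree `7`
  on twelve variables with level-one sum `39/16`.
* For every `d ≥ 4` there is a function of degree at most `d` whose level-one sum exceeds
  `B_d = E|X_1 + ... + X_d|`.
* For every `d ≥ 2`, every `f` of degree at most `d` has `∑_i |fhat({i})| ≤ (39/40) d`, at most
  `d - 1` when `d` is even, and at most `(15/16) d` when `d ≥ 40`. -/
theorem result :
    (∀ (n : ℕ) (f : (Fin n → ℤˣ) → ℤˣ), degree f ≤ 4 →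
        ∑ i : Fin n, |fourierCoeff f {i}| ≤ 7 / 4) ∧
    (∃ f : (Fin 7 → ℤˣ) → ℤˣ, degree f = 4 ∧ levelOneSum f = 7 / 4) ∧
    (∃ f : (Fin 10 → ℤˣ) → ℤˣ, degree f = 5 ∧ levelOneSum f = 17 / 8) ∧
    (∃ f : (Fin 12 → ℤˣ) → ℤˣ, degree f = 7 ∧ levelOneSum f = 39 / 16) ∧
    (∀ d : ℕ, 4 ≤ d →
      ∃ (n : ℕ) (f : (Fin n → ℤˣ) → ℤˣ), degree f ≤ d ∧ bMaj d < levelOneSum f) ∧
    (∀ (d n : ℕ) (f : (Fin n → ℤˣ) → ℤˣ), 2 ≤ d → degree f ≤ d →
      ∑ i : Fin n, |fourierCoeff f {i}| ≤ 39 / 40 * (d : ℚ)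
        ∧ (Even d → ∑ i : Fin n, |fourierCoeff f {i}| ≤ (d : ℚ) - 1)
        ∧ (40 ≤ d → ∑ i : Fin n, |fourierCoeff f {i}| ≤ 15 / 16 * (d : ℚ))) := by
  refine ⟨fun _ f hdeg => four_abs f hdeg, ⟨seven, seven_degree_eq, seven_levelOneSum⟩,
    ⟨ten, ten_degree_eq, ten_levelOneSum⟩, ⟨twelve, twelve_degree_eq, twelve_levelOneSum⟩, ?_,
    fun d _ f hd2 hdeg => constant_factor d hd2 f hdeg⟩
  intro d h4
  rcases Nat.even_or_odd d with hd | hd
  · obtain ⟨k, hk⟩ := hd
    have hm : Odd (d - 3) := ⟨k - 2, by omega⟩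
    have hd3 : d - 3 + 3 = d := by omega
    have key := exists_beats_majority (d - 3) hm
    rw [hd3] at key
    exact ⟨6 + (d - 3), gadFun seven (d - 3), key⟩
  · obtain ⟨k, hk⟩ := hd
    have hm : Odd (d - 4) := ⟨k - 2, by omega⟩
    have hd4 : d - 4 + 4 = d := by omega
    have key := gadget_odd_main ten
      (fun S hS => fourierCoeff_eq_zero_of_degree_lt ten S (lt_of_le_of_lt ten_degree_le hS))
      ten_levelOneSum (d - 4) hm
    rw [hd4] at key
    exact ⟨9 + (d - 4), gadFunK (k := 9) ten (d - 4), key⟩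

end Vale.Agent.Results.P047.B_Bounds
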