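import Mathlib
import Vale.Agent.Lib.P047.helper21.Assemble

namespace Vale.Agent.Results.P047.C_ConstantFactorBound

open Finset

/-- The Fourier coefficient of `f : {-1,1}^n → ℝ` at `S ⊆ [n]`:
`fourier f S = E[f(X) ∏_{i ∈ S} X_i]` for `X` uniform on the cube `{-1,1}^n`,
the cube being modelled as `Fin n → ℤˣ`. -/
noncomputable def fourier {n : ℕ} (f : (Fin n → ℤˣ) → ℝ) (S : Finset (Fin n)) : ℝ :=
  (∑ x : Fin n → ℤˣ, f x * ∏ i ∈ S, ((x i : ℤ) : ℝ)) / 2 ^ n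

/-- For every `d ≥ 2`, every Boolean function of degree at most `d` has
`∑_i |fhat({i})| ≤ (39/40) d`; if moreover `d` is even, the sum is at most `d - 1`;
and if `d ≥ 40`, the sum is at most `(15/16) d`. -/
theorem result (n d : ℕ) (hd2 : 2 ≤ d) (f : (Fin n → ℤˣ) → ℝ)
    (hf : ∀ x, f x = 1 ∨ f x = -1)
    (hdeg : ∀ S : Finset (Fin n), d < S.card → fourier f S = 0) :
    ∑ i : Fin n, |fourier f {i}| ≤ 39 / 40 * (d : ℝ)
      ∧ (Even d → ∑ i : Fin n, |fourier f {i}| ≤ (d : ℝ) - 1)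
      ∧ (40 ≤ d → ∑ i : Fin n, |fourier f {i}| ≤ 15 / 16 * (d : ℝ)) :=
  Vale.Agent.Lib.P047.helper21.level1_abs d hd2 f hf hdeg

end Vale.Agent.Results.P047.C_ConstantFactorBound
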